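import Vale.Agent.Lib.P307.Transfer

/-!
# P307: Shelah's eventual categoricity conjecture for AECs in monadic vocabularies

For every infinite cardinal `lam`, with `mu = (2 ^ lam)^+`: every abstract elementary class `K`
whose vocabulary consists of unary relation symbols only and with `LS(K) ≤ lam` that is
categorical in some cardinal `≥ mu` is categorical in every cardinal `≥ mu`.
No amalgamation, joint embedding, tameness or set-theoretic hypothesis is used.
-/

open FirstOrder Cardinal

universe u

namespace Vale.Agent.Results.P307.MonadicVocabulary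

open Vale.Agent.Lib.P307

theorem result (lam : Cardinal.{u}) (_hlam : ℵ₀ ≤ lam) :
    ∃ mu : Cardinal.{u}, lam ≤ mu ∧ mu = Order.succ (2 ^ lam) ∧
      ∀ L : FirstOrder.Language.{u, u}, (∀ n, IsEmpty (L.Functions n)) →
        (∀ n, n ≠ 1 → IsEmpty (L.Relations n)) →
        ∀ K : AEC L, K.LS ≤ lam →
          (∃ κ, mu ≤ κ ∧ K.Categorical κ) → ∀ κ', mu ≤ κ' → K.Categorical κ' := by
  refine ⟨Order.succ (2 ^ lam), ((cantor lam).le.trans (Order.le_succ _)), rfl, ?_⟩
  rintro L hF hR K hLS ⟨κ, hκ, hcat⟩ κ' hκ'
  exact categorical_transfer ⟨hF, hR⟩ K (K.lsWitness_of_le hLS)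
    (Order.succ_le_iff.mp hκ) (Order.succ_le_iff.mp hκ') hcat

end Vale.Agent.Results.P307.MonadicVocabulary
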